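import Vale.Agent.P066.Lab.Deriv

/-!
# LB1 (S3c): the leading part of `K_c · h` at `c`
-/

set_option autoImplicit false
set_option linter.unusedSectionVars false

open Finset MvPolynomial

namespace Vale.Agent.P066.Lab.H749

open Vale.Agent.P066.Lab

noncomputable section

section Top

variable {σ R : Type*} [CommRing R]

/-- `P` has degree `≤ m` and its part of degree `m` is `P0` -/
def Top (m : ℕ) (P P0 : MvPolynomial σ R) : Prop :=
  (∀ α : σ →₀ ℕ, m < α.degree → coeff α P = 0) ∧ homogeneousComponent m P = P0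

theorem Top.mul {m n : ℕ} {P P0 Q Q0 : MvPolynomial σ R} (hP : Top m P P0) (hQ : Top n Q Q0) :
    Top (m + n) (P * Q) (P0 * Q0) := by
  classical
  constructor
  · intro α hα
    rw [coeff_mul]
    refine sum_eq_zero fun p hp => ?_
    have h1 : p.1.degree + p.2.degree = α.degree := by
      rw [← map_add, mem_antidiagonal.mp hp]
    rcases Nat.lt_or_ge m p.1.degree with h | h
    · rw [hP.1 _ h, zero_mul]
    · rw [hQ.1 _ (by omega), mul_zero]
  · ext α
    rw [coeff_homogeneousComponent, ← hP.2, ← hQ.2, coeff_mul, coeff_mul]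
    split_ifs with hα
    · refine sum_congr rfl fun p hp => ?_
      have h1 : p.1.degree + p.2.degree = α.degree := by
        rw [← map_add, mem_antidiagonal.mp hp]
      rw [coeff_homogeneousComponent, coeff_homogeneousComponent]
      rcases Nat.lt_trichotomy p.1.degree m with h | h | h
      · rw [if_neg (by omega), hQ.1 p.2 (by omega), mul_zero, zero_mul]
      · rw [if_pos h, if_pos (by omega)]
      · rw [if_neg (by omega), hP.1 p.1 h, zero_mul, zero_mul]
    · symm
      refine sum_eq_zero fun p hp => ?_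
      have h1 : p.1.degree + p.2.degree = α.degree := by
        rw [← map_add, mem_antidiagonal.mp hp]
      rw [coeff_homogeneousComponent, coeff_homogeneousComponent]
      by_cases h : p.1.degree = m
      · rw [if_neg (show ¬ p.2.degree = n by omega), mul_zero]
      · rw [if_neg h, zero_mul]

theorem top_C (r : R) : Top 0 (C r : MvPolynomial σ R) (C r) := by
  classical
  constructor
  · intro α hα
    rw [coeff_C, if_neg]
    rintro rfl
    simp at hα
  · ext α
    rw [coeff_homogeneousComponent, coeff_C]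
    by_cases h : 0 = α
    · subst h
      simp
    · rw [if_neg h]
      simp

theorem top_one : Top 0 (1 : MvPolynomial σ R) 1 := by
  simpa using top_C (σ := σ) (1 : R)

theorem Top.pow {m : ℕ} {P P0 : MvPolynomial σ R} (hP : Top m P P0) (n : ℕ) :
    Top (n * m) (P ^ n) (P0 ^ n) := by
  induction n with
  | zero => simpa using top_one
  | succ n ih =>
    rw [pow_succ, pow_succ, add_mul, one_mul]
    exact ih.mul hP

theorem top_prod {ι : Type*} (s : Finset ι) (m : ι → ℕ) (P P0 : ι → MvPolynomial σ R)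
    (h : ∀ i ∈ s, Top (m i) (P i) (P0 i)) : Top (∑ i ∈ s, m i) (∏ i ∈ s, P i) (∏ i ∈ s, P0 i) := by
  classical
  induction s using Finset.induction_on with
  | empty => simpa using top_one
  | insert i s hi ih =>
    rw [sum_insert hi, prod_insert hi, prod_insert hi]
    exact (h i (mem_insert_self i s)).mul (ih fun j hj => h j (mem_insert_of_mem hj))

theorem top_sum {ι : Type*} (s : Finset ι) (m : ℕ) (P P0 : ι → MvPolynomial σ R)
    (h : ∀ i ∈ s, Top m (P i) (P0 i)) : Top m (∑ i ∈ s, P i) (∑ i ∈ s, P0 i) := by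
  constructor
  · intro α hα
    rw [coeff_sum]
    exact sum_eq_zero fun i hi => (h i hi).1 α hα
  · rw [map_sum]
    exact sum_congr rfl fun i hi => (h i hi).2

theorem top_linear (r : R) {L : MvPolynomial σ R} (hL : L.IsHomogeneous 1) :
    Top 1 (C r + L) L := by
  classical
  constructor
  · intro α hα
    rw [coeff_add, coeff_C, if_neg, hL.coeff_eq_zero, add_zero]
    · omega
    · rintro rfl
      simp at hα
  · rw [map_add, homogeneousComponent_of_mem hL, if_pos rfl]
    have : homogeneousComponent 1 (C r : MvPolynomial σ R) = 0 := by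
      have hC : (C r : MvPolynomial σ R).IsHomogeneous 0 := isHomogeneous_C σ r
      rw [homogeneousComponent_of_mem hC, if_neg (by omega)]
    rw [this, zero_add]

end Top

variable {S : Type} [Fintype S] [DecidableEq S] {k : Type} [Field k] {a : S → S → ℕ} {θ : S → ℤ}

/-- `T_c` modulo `J_c` -/
def Tq (k : Type) [Field k] (a : S → S → ℕ) (θ : S → ℤ) (c : S → ℕ) :
    MvPolynomial S k →+* MvPolynomial ℕ (MvPolynomial S k ⧸ JC k a θ c) :=
  (map (Ideal.Quotient.mk (JC k a θ c))).comp (Tc k c : MvPolynomial S k →+* _)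

theorem Tq_apply (c : S → ℕ) (f : MvPolynomial S k) :
    Tq k a θ c f = map (Ideal.Quotient.mk (JC k a θ c)) (Tc k c f) := rfl

theorem coeff_Tq (c : S → ℕ) (f : MvPolynomial S k) (α : ℕ →₀ ℕ) :
    coeff α (Tq k a θ c f) = Ideal.Quotient.mk (JC k a θ c) (coeff α (Tc k c f)) := by
  rw [Tq_apply, coeff_map]

theorem Sb_eq_of_top {c : S → ℕ} {d : ℕ} {f : MvPolynomial S k}
    {P0 : MvPolynomial ℕ (MvPolynomial S k ⧸ JC k a θ c)} (h : Top d (Tq k a θ c f) P0) :
    Sb k a θ c d f = P0 := h.2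

theorem Lev_of_top {c : S → ℕ} {d : ℕ} {n : ℤ} {f : MvPolynomial S k}
    {P0 : MvPolynomial ℕ (MvPolynomial S k ⧸ JC k a θ c)} (h : Top d (Tq k a θ c f) P0)
    (hn : 2 * (d : ℤ) + nb c ≤ n + 2 * CC a c) : Lev k a θ c n f := by
  intro α hα
  have h1 := h.1 α (by omega)
  rw [coeff_Tq] at h1
  exact Ideal.Quotient.eq_zero_iff_mem.mp h1

/-- the number of arrows counted by `C_c` -/
def CN (a : S → S → ℕ) (c : S → ℕ) : ℕ :=
  ∑ p ∈ univ.filter (fun p : S × S => c p.1 < c p.2), a p.1 p.2

theorem CN_cast (c : S → ℕ) : (CN a c : ℤ) = CC a c := by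
  unfold CN CC
  push_cast
  rfl

theorem top_KC (c : S → ℕ) :
    Top (CN a c) (Tq k a θ c (KC k a c)) (PU a (MvPolynomial S k ⧸ JC k a θ c) c) := by
  unfold KC QP PU CN
  rw [map_prod]
  refine top_prod _ _ _ _ fun p _ => ?_
  rw [map_pow]
  have h1 : Tq k a θ c (X p.2 - X p.1) = C (Ideal.Quotient.mk (JC k a θ c) (X p.2 - X p.1))
      + (X (c p.2) - X (c p.1)) := by
    rw [Tq_apply, map_sub, Tc_X, Tc_X]
    simp only [map_sub, map_add, map_C, map_X]
    ring
  rw [h1]
  have h2 := (top_linear (Ideal.Quotient.mk (JC k a θ c) (X p.2 - X p.1))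
    (L := (X (c p.2) - X (c p.1) : MvPolynomial ℕ (MvPolynomial S k ⧸ JC k a θ c)))
    ((isHomogeneous_X _ _).sub (isHomogeneous_X _ _))).pow (a p.1 p.2)
  simpa using h2

theorem top_Gc {c : S → ℕ} {w : MvPolynomial S k} (hc : Zc θ c) (hw : Gc k a θ c w) :
    Top 0 (Tq k a θ c w) (C (Ideal.Quotient.mk (JC k a θ c) w)) := by
  have h0 : Tq k a θ c w = C (Ideal.Quotient.mk (JC k a θ c) w) := by
    classical
    ext α
    rw [coeff_Tq, coeff_C]
    split_ifs with h
    · subst h
      rw [coeff_zero_Tc]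
    · rw [Ideal.Quotient.eq_zero_iff_mem]
      refine hw c hc (Ref.refl c) α ?_
      have : 0 < α.degree := by
        rw [Nat.pos_iff_ne_zero, Ne, Finsupp.degree_eq_zero_iff]
        exact fun h' => h h'.symm
      omega
  rw [h0]
  exact top_C _

theorem top_uk [CharZero k] {c : S → ℕ} {i : ℕ} (hi : i ∈ univ.image c) :
    Top 1 (Tq k a θ c (uk k c i)) (X i) := by
  have h1 : Tq k a θ c (uk k c i) = C (Ideal.Quotient.mk (JC k a θ c) (uk k c i)) + X i := by
    have h2 : Tc k c (uk k c i) = C (uk k c i) + X i := by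
      unfold uk
      rw [map_mul, map_sum]
      have h3 : Tc k c (C (((blk c i).card : k)⁻¹)) = C (C (((blk c i).card : k)⁻¹)) := by
        simp [Tc, MvPolynomial.algebraMap_apply]
      have h4 : ∑ s ∈ blk c i, Tc k c (X s) = C (∑ s ∈ blk c i, X s)
          + C (C ((blk c i).card : k)) * X i := by
        have : ∀ s ∈ blk c i, Tc k c (X s) = C (X s) + X i := by
          intro s hs
          rw [Tc_X, mem_blk.mp hs]
        rw [sum_congr rfl this, sum_add_distrib, sum_const, map_sum, nsmul_eq_mul]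
        congr 2
      have h5 : ((blk c i).card : k) ≠ 0 := by
        obtain ⟨s, _, hs⟩ := mem_image.mp hi
        have : (blk c i).Nonempty := ⟨s, mem_blk.mpr hs⟩
        exact_mod_cast this.card_pos.ne'
      rw [h3, h4, mul_add, ← C_mul, ← mul_assoc, ← C_mul, ← C_mul, inv_mul_cancel₀ h5, C_1, C_1,
        one_mul]
    rw [Tq_apply, h2, map_add, map_C, map_X]
  rw [h1]
  exact top_linear _ (isHomogeneous_X _ _)

/-- leading part of one term -/
theorem top_term [CharZero k] {c : S → ℕ} (hc : Zc θ c) {w : MvPolynomial S k}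
    (hw : Gc k a θ c w) {α : ℕ →₀ ℕ} (hα : ∀ i ∈ α.support, i ∈ univ.image c) :
    Top α.degree (Tq k a θ c (w * ∏ i ∈ α.support, uk k c i ^ α i))
      (monomial α (Ideal.Quotient.mk (JC k a θ c) w)) := by
  have h1 : (monomial α (Ideal.Quotient.mk (JC k a θ c) w) : MvPolynomial ℕ _)
      = C (Ideal.Quotient.mk (JC k a θ c) w) * ∏ i ∈ α.support, X i ^ α i := by
    rw [monomial_eq]
    rfl
  rw [h1, map_mul, map_prod]
  have h2 : Top (∑ i ∈ α.support, α i) (∏ i ∈ α.support, Tq k a θ c (uk k c i ^ α i))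
      (∏ i ∈ α.support, (X i ^ α i : MvPolynomial ℕ (MvPolynomial S k ⧸ JC k a θ c))) := by
    refine top_prod _ _ _ _ fun i hi => ?_
    rw [map_pow]
    simpa using (top_uk (k := k) (a := a) (θ := θ) (hα i hi)).pow (α i)
  have h3 := (top_Gc hc hw).mul h2
  rw [zero_add] at h3
  exact h3

/-- leading part of `K_c · h` -/
theorem top_KC_mul_eval [CharZero k] {c : S → ℕ} (hc : Zc θ c) {n0 : ℕ}
    {T' : MvPolynomial ℕ (MvPolynomial S k)} (hT : T'.IsHomogeneous n0)
    (hv : ∀ α ∈ T'.support, ∀ i ∈ α.support, i ∈ univ.image c)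
    (hG : ∀ α, Gc k a θ c (coeff α T')) :
    Top (CN a c + n0) (Tq k a θ c (KC k a c * eval (uk k c) T'))
      (PU a (MvPolynomial S k ⧸ JC k a θ c) c * map (Ideal.Quotient.mk (JC k a θ c)) T') := by
  rw [map_mul]
  refine (top_KC c).mul ?_
  have h1 : eval (uk k c) T' = ∑ α ∈ T'.support, coeff α T' * ∏ i ∈ α.support, uk k c i ^ α i :=
    eval_eq _ _
  have h2 : map (Ideal.Quotient.mk (JC k a θ c)) T' = ∑ α ∈ T'.support,
      monomial α (Ideal.Quotient.mk (JC k a θ c) (coeff α T')) := by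
    conv_lhs => rw [T'.as_sum]
    rw [map_sum]
    exact sum_congr rfl fun α _ => by rw [map_monomial]
  rw [h1, h2, map_sum]
  refine top_sum _ _ _ _ fun α hα => ?_
  have h3 := top_term hc (hG α) (hv α hα)
  have h4 : α.degree = n0 := by
    by_contra hne
    exact (mem_support_iff.mp hα) (hT.coeff_eq_zero hne)
  rwa [h4] at h3

/-- (S3c): the symbol of `K_c · h` at `c` -/
theorem Sb_KC_mul_eval [CharZero k] {c : S → ℕ} (hc : Zc θ c) {n0 : ℕ}
    {T' : MvPolynomial ℕ (MvPolynomial S k)} (hT : T'.IsHomogeneous n0)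
    (hv : ∀ α ∈ T'.support, ∀ i ∈ α.support, i ∈ univ.image c)
    (hG : ∀ α, Gc k a θ c (coeff α T')) {d : ℕ} (hd : (d : ℤ) = CC a c + n0) :
    Sb k a θ c d (KC k a c * eval (uk k c) T')
      = PU a (MvPolynomial S k ⧸ JC k a θ c) c * map (Ideal.Quotient.mk (JC k a θ c)) T' := by
  have : d = CN a c + n0 := by
    have := CN_cast (a := a) c
    omega
  subst this
  exact Sb_eq_of_top (top_KC_mul_eval hc hT hv hG)

/-- the level of `K_c · h` at `c` -/
theorem Lev_KC_mul_eval [CharZero k] {c : S → ℕ} (hc : Zc θ c) {n0 : ℕ}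
    {T' : MvPolynomial ℕ (MvPolynomial S k)} (hT : T'.IsHomogeneous n0)
    (hv : ∀ α ∈ T'.support, ∀ i ∈ α.support, i ∈ univ.image c)
    (hG : ∀ α, Gc k a θ c (coeff α T')) :
    Lev k a θ c (2 * (n0 : ℤ) + nb c) (KC k a c * eval (uk k c) T') := by
  refine Lev_of_top (top_KC_mul_eval hc hT hv hG) ?_
  have := CN_cast (a := a) c
  push_cast
  linarith

/-- single term version -/
theorem Sb_KC_mul_term [CharZero k] {c : S → ℕ} (hc : Zc θ c) {w : MvPolynomial S k}
    (hw : Gc k a θ c w) {α : ℕ →₀ ℕ} (hα : ∀ i ∈ α.support, i ∈ univ.image c)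
    {d : ℕ} (hd : (d : ℤ) = CC a c + α.degree) :
    Sb k a θ c d (KC k a c * (w * ∏ i ∈ α.support, uk k c i ^ α i))
      = PU a (MvPolynomial S k ⧸ JC k a θ c) c
        * monomial α (Ideal.Quotient.mk (JC k a θ c) w) := by
  have : d = CN a c + α.degree := by
    have := CN_cast (a := a) c
    omega
  subst this
  refine Sb_eq_of_top ?_
  rw [map_mul]
  exact (top_KC c).mul (top_term hc hw hα)

theorem Lev_KC_mul_term [CharZero k] {c : S → ℕ} (hc : Zc θ c) {w : MvPolynomial S k}
    (hw : Gc k a θ c w) {α : ℕ →₀ ℕ} (hα : ∀ i ∈ α.support, i ∈ univ.image c) :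
    Lev k a θ c (2 * (α.degree : ℤ) + nb c)
      (KC k a c * (w * ∏ i ∈ α.support, uk k c i ^ α i)) := by
  have h1 : Top (CN a c + α.degree)
      (Tq k a θ c (KC k a c * (w * ∏ i ∈ α.support, uk k c i ^ α i)))
      (PU a (MvPolynomial S k ⧸ JC k a θ c) c
        * monomial α (Ideal.Quotient.mk (JC k a θ c) w)) := by
    rw [map_mul]
    exact (top_KC c).mul (top_term hc hw hα)
  refine Lev_of_top h1 ?_
  have := CN_cast (a := a) c
  push_cast
  linarith

/-- linearity of the symbol -/
theorem Sb_add (c : S → ℕ) (d : ℕ) (f g : MvPolynomial S k) :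
    Sb k a θ c d (f + g) = Sb k a θ c d f + Sb k a θ c d g := by
  unfold Sb
  rw [map_add, map_add, map_add]

theorem Sb_sum {ι : Type*} (s : Finset ι) (c : S → ℕ) (d : ℕ) (f : ι → MvPolynomial S k) :
    Sb k a θ c d (∑ i ∈ s, f i) = ∑ i ∈ s, Sb k a θ c d (f i) := by
  unfold Sb
  rw [map_sum, map_sum, map_sum]

theorem Sb_sub (c : S → ℕ) (d : ℕ) (f g : MvPolynomial S k) :
    Sb k a θ c d (f - g) = Sb k a θ c d f - Sb k a θ c d g := by
  unfold Sb
  rw [map_sub, map_sub, map_sub]

end

end Vale.Agent.P066.Lab.H749
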