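import Vale.Agent.P066.Lab.Basic

/-!
# Counting arrows and blocks
-/

set_option autoImplicit false
set_option linter.unusedSectionVars false

open Finset MvPolynomial

namespace Vale.Agent.P066.Lab.H749

open Vale.Agent.P066.Lab

section

variable {S : Type} [Fintype S] [DecidableEq S] (a : S → S → ℕ) (θ : S → ℤ)

/-- sum of `a s t` over the pairs satisfying `Q (m s) (m t)` -/
def aQ (m : S → ℕ) (Q : ℕ → ℕ → Prop) [∀ i j, Decidable (Q i j)] : ℤ :=
  ∑ s, ∑ t, if Q (m s) (m t) then (a s t : ℤ) else 0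

theorem aQ_eq_blocks (m : S → ℕ) (Q : ℕ → ℕ → Prop) [∀ i j, Decidable (Q i j)] :
    aQ a m Q = ∑ i ∈ univ.image m, ∑ j ∈ univ.image m,
      if Q i j then ar a (blk m i) (blk m j) else 0 := by
  unfold aQ
  rw [← sum_fiberwise_of_maps_to (t := univ.image m) (g := m)
    (fun s _ => mem_image_of_mem _ (mem_univ s))]
  refine sum_congr rfl fun i _ => ?_
  have : ∀ s, ∑ t, (if Q (m s) (m t) then (a s t : ℤ) else 0)
      = ∑ j ∈ univ.image m, ∑ t ∈ univ.filter (fun t => m t = j),
        if Q (m s) (m t) then (a s t : ℤ) else 0 := fun s =>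
    (sum_fiberwise_of_maps_to (t := univ.image m) (g := m)
      (fun s _ => mem_image_of_mem _ (mem_univ s)) _).symm
  simp_rw [this]
  rw [sum_comm]
  refine sum_congr rfl fun j _ => ?_
  split_ifs with h
  · unfold ar
    refine sum_congr (by ext; simp [blk]) fun s hs => ?_
    refine sum_congr (by ext; simp [blk]) fun t ht => ?_
    rw [mem_blk] at hs ht
    rw [hs, ht, if_pos h]
  · refine sum_eq_zero fun s hs => sum_eq_zero fun t ht => ?_
    rw [mem_filter] at hs ht
    rw [hs.2, ht.2, if_neg h]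

theorem aQ_symm (hsym : SymZ a θ) {m : S → ℕ} (hm : Zc θ m) (Q : ℕ → ℕ → Prop)
    [∀ i j, Decidable (Q i j)] (hQ : ∀ i, ¬ Q i i) :
    aQ a m Q = aQ a m (fun i j => Q j i) := by
  rw [aQ_eq_blocks, aQ_eq_blocks, sum_comm]
  refine sum_congr rfl fun i _ => sum_congr rfl fun j _ => ?_
  split_ifs with h
  · refine hsym _ _ ?_ (hm _) (hm _)
    rw [Finset.disjoint_left]
    intro s hs hs'
    rw [mem_blk] at hs hs'
    subst hs
    subst hs'
    exact hQ _ h
  · rfl

theorem aQ_add {m : S → ℕ} (Q R T : ℕ → ℕ → Prop)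
    [∀ i j, Decidable (Q i j)] [∀ i j, Decidable (R i j)] [∀ i j, Decidable (T i j)]
    (h : ∀ i j, T i j ↔ Q i j ∨ R i j) (hd : ∀ i j, ¬ (Q i j ∧ R i j)) :
    aQ a m T = aQ a m Q + aQ a m R := by
  unfold aQ
  rw [← sum_add_distrib]
  refine sum_congr rfl fun s _ => ?_
  rw [← sum_add_distrib]
  refine sum_congr rfl fun t _ => ?_
  have h1 := h (m s) (m t)
  have h2 := hd (m s) (m t)
  by_cases hq : Q (m s) (m t) <;> by_cases hr : R (m s) (m t) <;> simp_all

theorem aQ_congr {m m' : S → ℕ} (Q Q' : ℕ → ℕ → Prop)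
    [∀ i j, Decidable (Q i j)] [∀ i j, Decidable (Q' i j)]
    (h : ∀ s t, Q (m s) (m t) ↔ Q' (m' s) (m' t)) :
    aQ a m Q = aQ a m' Q' := by
  unfold aQ
  exact sum_congr rfl fun s _ => sum_congr rfl fun t _ => by simp only [h]

theorem CC_eq_aQ (c : S → ℕ) : CC a c = aQ a c (fun i j => i < j) := by
  unfold CC aQ
  rw [sum_filter, ← sum_product']
  rfl

/-- `2 C_π` is the number of arrows between different blocks -/
theorem two_CC (hsym : SymZ a θ) {c : S → ℕ} (hc : Zc θ c) :
    2 * CC a c = aQ a c (fun i j => i ≠ j) := by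
  rw [CC_eq_aQ, aQ_add a (fun i j => i < j) (fun i j => j < i) (fun i j => i ≠ j)
    (fun i j => by omega) (fun i j => by omega),
    ← aQ_symm a θ hsym hc (fun i j => i < j) (fun i => lt_irrefl i)]
  ring

theorem exists_factor {m c : S → ℕ} (h : Ref m c) : ∃ φ : ℕ → ℕ, ∀ s, c s = φ (m s) := by
  classical
  refine ⟨fun i => if hi : ∃ s, m s = i then c hi.choose else 0, fun s => ?_⟩
  have hs : ∃ t, m t = m s := ⟨s, rfl⟩
  simp only [hs, dif_pos]
  exact h _ _ hs.choose_spec.symm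

theorem nb_le {m c : S → ℕ} (h : Ref m c) : nb c ≤ nb m := by
  obtain ⟨φ, hφ⟩ := exists_factor h
  unfold nb
  have : univ.image c = (univ.image m).image φ := by
    rw [image_image]
    congr 1
    funext s
    exact hφ s
  rw [this]
  exact_mod_cast card_image_le

theorem nb_lt {m c : S → ℕ} (h : Ref m c) (h' : ¬ Ref c m) : nb c < nb m := by
  obtain ⟨φ, hφ⟩ := exists_factor h
  refine lt_of_le_of_ne (nb_le h) fun heq => h' ?_
  unfold nb at heq
  have himg : univ.image c = (univ.image m).image φ := by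
    rw [image_image]
    congr 1
    funext s
    exact hφ s
  rw [himg] at heq
  have hinj := card_image_iff.mp (by exact_mod_cast heq : ((univ.image m).image φ).card
    = (univ.image m).card)
  intro s t hst
  refine hinj ?_ ?_ ?_
  · simp
  · simp
  · rw [← hφ, ← hφ, hst]

/-- number of arrows `s → t` with `c s < c t` between different blocks of `c'` -/
theorem two_cross (hsym : SymZ a θ) {c c' : S → ℕ} (hc : Zc θ c) (hc' : Zc θ c')
    (hm : Zc θ (meet c c')) :
    2 * (∑ p ∈ univ.filter (fun p : S × S => c p.1 < c p.2 ∧ c' p.1 ≠ c' p.2), (a p.1 p.2 : ℤ))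
      = 2 * CC a c' - 2 * CC a (meet c c') + 2 * CC a c := by
  set m := meet c c' with hmdef
  let l : ℕ → ℕ := fun i => (Nat.unpair i).1
  let r : ℕ → ℕ := fun i => (Nat.unpair i).2
  have hl : ∀ s, l (m s) = c s := fun s => by simp [l, hmdef, meet]
  have hr : ∀ s, r (m s) = c' s := fun s => by simp [r, hmdef, meet]
  have hmne : ∀ s t, m s ≠ m t ↔ (c s ≠ c t ∨ c' s ≠ c' t) := fun s t => by
    rw [Ne, hmdef, meet_eq_iff]; tauto
  have e1 : (∑ p ∈ univ.filter (fun p : S × S => c p.1 < c p.2 ∧ c' p.1 ≠ c' p.2),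
      (a p.1 p.2 : ℤ)) = aQ a m (fun i j => l i < l j ∧ r i ≠ r j) := by
    unfold aQ
    rw [sum_filter, ← univ_product_univ, sum_product]
    simp only [hl, hr]
  have e2 : aQ a m (fun i j => l i < l j ∧ r i ≠ r j)
      = aQ a m (fun i j => l j < l i ∧ r i ≠ r j) := by
    rw [aQ_symm a θ hsym hm (fun i j => l i < l j ∧ r i ≠ r j) (fun i h => h.2 rfl)]
    exact aQ_congr a _ _ fun s t => by
      constructor
      · exact fun h => ⟨h.1, Ne.symm h.2⟩
      · exact fun h => ⟨h.1, Ne.symm h.2⟩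
  have e3 : aQ a m (fun i j => l i ≠ l j ∧ r i ≠ r j)
      = aQ a m (fun i j => l i < l j ∧ r i ≠ r j) + aQ a m (fun i j => l j < l i ∧ r i ≠ r j) :=
    aQ_add a _ _ _ (fun i j => by omega) (fun i j => by omega)
  have e4 : 2 * CC a c' = aQ a m (fun i j => r i ≠ r j) := by
    rw [two_CC a θ hsym hc']
    exact aQ_congr a _ _ fun s t => by rw [hr, hr]
  have e5 : 2 * CC a c = aQ a m (fun i j => l i ≠ l j) := by
    rw [two_CC a θ hsym hc]
    exact aQ_congr a _ _ fun s t => by rw [hl, hl]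
  have e6 : 2 * CC a m = aQ a m (fun i j => l i ≠ l j ∨ r i ≠ r j) := by
    rw [two_CC a θ hsym hm]
    exact aQ_congr a _ _ fun s t => by rw [hl, hl, hr, hr, hmne]
  have e7 : aQ a m (fun i j => l i ≠ l j ∨ r i ≠ r j)
      = aQ a m (fun i j => l i ≠ l j) + aQ a m (fun i j => l i = l j ∧ r i ≠ r j) :=
    aQ_add a _ _ _ (fun i j => by tauto) (fun i j => by tauto)
  have e8 : aQ a m (fun i j => r i ≠ r j)
      = aQ a m (fun i j => l i ≠ l j ∧ r i ≠ r j) + aQ a m (fun i j => l i = l j ∧ r i ≠ r j) :=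
    aQ_add a _ _ _ (fun i j => by tauto) (fun i j => by tauto)
  rw [e1, e4, e5, e6, e7, e8, e3, ← e2]
  ring

end

end Vale.Agent.P066.Lab.H749
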